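import Vale.Agent.P227.Mirror3

open MeasureTheory Set

namespace Vale.Agent.Results.P227.AllButThreeMirrors

/-- An origin-symmetric convex body. -/
def IsSymBody {n : ℕ} (K : Set (Fin n → ℝ)) : Prop :=
  IsCompact K ∧ Convex ℝ K ∧ (interior K).Nonempty ∧ ∀ x ∈ K, -x ∈ K

/-- The support function. -/
noncomputable def supportFn {n : ℕ} (K : Set (Fin n → ℝ)) (u : Fin n → ℝ) : ℝ :=
  sSup ((fun x => ∑ i, x i * u i) '' K)

/-- The logarithmic combination: the Wulff body of `h_K ^ (1 - t) * h_L ^ t` on the sphere. -/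
noncomputable def logSum {n : ℕ} (t : ℝ) (K L : Set (Fin n → ℝ)) : Set (Fin n → ℝ) :=
  {x | ∀ u : Fin n → ℝ, ∑ i, u i ^ 2 = 1 →
    ∑ i, x i * u i ≤ supportFn K u ^ (1 - t) * supportFn L u ^ t}

/-- The linear reflection which changes the sign of the `i`-th coordinate in the linear
coordinates `T`. -/
noncomputable def mirror {n : ℕ} (T : (Fin n → ℝ) ≃ₗ[ℝ] (Fin n → ℝ)) (i : Fin n)
    (x : Fin n → ℝ) : Fin n → ℝ :=
  T.symm (Function.update (T x) i (-(T x i)))

lemma supportFn_eq {n : ℕ} (K : Set (Fin n → ℝ)) (u : Fin n → ℝ) :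
    supportFn K u = Vale.Agent.P227.supp K u := rfl

/-- The logarithmic Brunn-Minkowski inequality holds for every pair of origin-symmetric convex
bodies invariant under the same `n - 3` commuting linear reflections; for `n ≤ 3` there is no
symmetry assumption. -/
theorem result : ∀ n : ℕ, 2 ≤ n → ∀ K L : Set (Fin n → ℝ), IsSymBody K → IsSymBody L →
    (∃ T : (Fin n → ℝ) ≃ₗ[ℝ] (Fin n → ℝ), ∀ i : Fin n, (i : ℕ) + 3 < n →
      (∀ x ∈ K, mirror T i x ∈ K) ∧ ∀ x ∈ L, mirror T i x ∈ L) →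
    ∀ t : ℝ, 0 ≤ t → t ≤ 1 →
      volume K ^ (1 - t) * volume L ^ t ≤ volume (logSum t K L) := by
  intro n hn K L ⟨hK, _, _, hKs⟩ ⟨hL, _, _, hLs⟩ ⟨T, hT⟩ t ht0 ht1
  rcases eq_or_lt_of_le ht0 with rfl | ht0'
  · simp only [sub_zero, ENNReal.rpow_one, ENNReal.rpow_zero, mul_one]
    refine measure_mono fun x hx u _ => ?_
    rw [sub_zero, Real.rpow_one, Real.rpow_zero, mul_one]
    exact Vale.Agent.P227.supp_le hK hx u
  rcases eq_or_lt_of_le ht1 with rfl | ht1'
  · simp only [sub_self, ENNReal.rpow_one, ENNReal.rpow_zero, one_mul]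
    refine measure_mono fun x hx u _ => ?_
    rw [sub_self, Real.rpow_one, Real.rpow_zero, one_mul]
    exact Vale.Agent.P227.supp_le hL hx u
  rcases eq_or_lt_of_le hn with rfl | hn3
  · refine le_trans (Vale.Agent.P227.planar hK hL hKs hLs (by linarith) ht0' (by ring))
      (measure_mono fun x hx u _ => ?_)
    exact hx u
  obtain ⟨m, rfl⟩ : ∃ m, n = m + 3 := ⟨n - 3, by omega⟩
  have himg : ∀ M : Set (Fin (m + 3) → ℝ), IsCompact M → (∀ x ∈ M, -x ∈ M) →
      (∀ i : Fin (m + 3), (i : ℕ) + 3 < m + 3 → ∀ x ∈ M, mirror T i x ∈ M) →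
      IsCompact (T '' M) ∧ (∀ y ∈ T '' M, -y ∈ T '' M) ∧
        ∀ i : Fin (m + 3), (i : ℕ) < m → ∀ y ∈ T '' M, Vale.Agent.P227.flipCoord i y ∈ T '' M := by
    intro M hM hMs hMf
    refine ⟨hM.image (LinearMap.continuous_of_finiteDimensional T.toLinearMap), ?_, ?_⟩
    · rintro _ ⟨x, hx, rfl⟩
      exact ⟨-x, hMs x hx, map_neg T x⟩
    · rintro i hi _ ⟨x, hx, rfl⟩
      exact ⟨mirror T i x, hMf i (by omega) x hx, T.apply_symm_apply _⟩
  obtain ⟨a1, a2, a3⟩ := himg K hK hKs fun i hi => (hT i hi).1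
  obtain ⟨b1, b2, b3⟩ := himg L hL hLs fun i hi => (hT i hi).2
  have main := Vale.Agent.P227.mirror_induction_three m (T '' K) (T '' L) a1 b1 a2 b2
    (fun i hi => ⟨a3 i hi, b3 i hi⟩) (1 - t) t (by linarith) ht0' (by ring)
  have hsub : Vale.Agent.P227.logComb (1 - t) t (T '' K) (T '' L) ⊆ T '' logSum t K L := by
    intro y hy
    refine ⟨T.symm y, fun u _ => ?_, T.apply_symm_apply y⟩
    set v : Fin (m + 3) → ℝ := fun j => dotProduct (T.symm (Pi.single j 1)) u with hv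
    have hdot : ∀ z, dotProduct z v = dotProduct (T.symm z) u := by
      intro z
      conv_rhs => rw [pi_eq_sum_univ' z]
      simp only [map_sum, map_smul, sum_dotProduct, smul_dotProduct, hv, smul_eq_mul]
      rfl
    have hsupp : ∀ M : Set (Fin (m + 3) → ℝ),
        Vale.Agent.P227.supp (T '' M) v = Vale.Agent.P227.supp M u := by
      intro M
      rw [Vale.Agent.P227.supp, Vale.Agent.P227.supp, Set.image_image]
      simp [hdot]
    have h := hy v
    rw [hsupp, hsupp, hdot] at h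
    exact h
  set c := ENNReal.ofReal |LinearMap.det (T : (Fin (m + 3) → ℝ) →ₗ[ℝ] (Fin (m + 3) → ℝ))| with hc
  have hvol : ∀ M : Set (Fin (m + 3) → ℝ), volume (T '' M) = c * volume M := fun M =>
    Measure.addHaar_image_linearMap (volume : Measure (Fin (m + 3) → ℝ))
      (T : (Fin (m + 3) → ℝ) →ₗ[ℝ] (Fin (m + 3) → ℝ)) M
  have hc0 : c ≠ 0 := by simpa [hc] using T.isUnit_det'.ne_zero
  have hct : c ≠ ⊤ := ENNReal.ofReal_ne_top
  have h := main.trans (measure_mono hsub)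
  rw [hvol, hvol, hvol, ENNReal.mul_rpow_of_nonneg _ _ (by linarith),
    ENNReal.mul_rpow_of_nonneg _ _ ht0, mul_mul_mul_comm, ← ENNReal.rpow_add _ _ hc0 hct,
    sub_add_cancel, ENNReal.rpow_one] at h
  exact (ENNReal.mul_le_mul_iff_right hc0 hct).1 h

end Vale.Agent.Results.P227.AllButThreeMirrors
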