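import Vale.Agent.P227.LpN.Cells
import Vale.Agent.P227.LpN.Assembly

open MeasureTheory Set

namespace Vale.Agent.Results.P227.LpAllDims

/-- An origin-symmetric convex body. -/
def IsSymBody {n : ℕ} (K : Set (Fin n → ℝ)) : Prop :=
  IsCompact K ∧ Convex ℝ K ∧ (interior K).Nonempty ∧ ∀ x ∈ K, -x ∈ K

/-- The support function. -/
noncomputable def supportFn {n : ℕ} (K : Set (Fin n → ℝ)) (u : Fin n → ℝ) : ℝ :=
  sSup ((fun x => ∑ i, x i * u i) '' K)

/-- The `L_p` combination: the Wulff body of the `p`-mean of the two support functions on the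
sphere. -/
noncomputable def lpSum {n : ℕ} (p t : ℝ) (K L : Set (Fin n → ℝ)) : Set (Fin n → ℝ) :=
  {x | ∀ u : Fin n → ℝ, ∑ i, u i ^ 2 = 1 →
    ∑ i, x i * u i ≤ ((1 - t) * supportFn K u ^ p + t * supportFn L u ^ p) ^ (1 / p)}

/-- The `L_p` Brunn-Minkowski inequality for all origin-symmetric convex bodies in every
dimension `n ≥ 4` and every `p` between `(n-2)/(n-1)` and `1`. -/
theorem result : ∀ n : ℕ, 4 ≤ n → ∀ K L : Set (Fin n → ℝ), IsSymBody K → IsSymBody L →
    ∀ p t : ℝ, ((n : ℝ) - 2) / ((n : ℝ) - 1) ≤ p → p ≤ 1 → 0 ≤ t → t ≤ 1 →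
      (1 - t) * (volume K).toReal ^ (p / n) + t * (volume L).toReal ^ (p / n)
        ≤ (volume (lpSum p t K L)).toReal ^ (p / n) := by
  intro n hn K L hK hL p t hp hp1 ht0 ht1
  have h := Vale.Agent.P227.LpN.main_of_cells
    (Vale.Agent.P227.LpN.cellSpec Vale.Agent.P227.LpN.slabSpec)
    (Vale.Agent.P227.LpN.curveSpec Vale.Agent.P227.LpN.slabSpec) n hn K L hK hL p t hp hp1 ht0 ht1
  have e : lpSum p t K L = Vale.Agent.P227.LpN.lpSum p t K L := by
    ext x
    simp only [lpSum, Vale.Agent.P227.LpN.lpSum, supportFn, Vale.Agent.P227.LpN.supportFn,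
      dotProduct, pow_two]
  rw [e]
  exact h

end Vale.Agent.Results.P227.LpAllDims
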